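import Vale.Agent.P328C.St

/-!
From the law of the estimate and polynomial time to the probabilistic Turing machine.
-/

namespace Vale.Agent.P328C

open Finset hiding val
open Vale.Agent.P328 Vale.Agent.Lib.PTM Vale.Agent.Lib.PolyTime

/-- Inputs of the machine. -/
abbrev CInp : Type := List ℕ × List ℕ × (ℕ × ℕ) × ℕ × ℕ

/-- The input as a tuple. -/
def cinp {m n : ℕ} (r : Fin m → ℕ) (c : Fin n → ℕ) (ε δ : ℚ) : CInp :=
  (List.ofFn r, List.ofFn c, (ε.num.natAbs, ε.den), δ.num.natAbs, δ.den)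

theorem ccode_eq {m n : ℕ} (r : Fin m → ℕ) (c : Fin n → ℕ) (ε δ : ℚ) :
    pair (vec r) (pair (vec c) (pair (rat ε) (rat δ))) = enc (cinp r c ε δ) := by
  rw [rat, rat, pair_eq, pair_eq, pair_eq, pair_eq, pair_eq, vec_eq, vec_eq]
  rfl

theorem esize_cinp {m n : ℕ} (r : Fin m → ℕ) (c : Fin n → ℕ) (ε δ : ℚ) :
    esize (cinp r c ε δ) = 4 * ∑ i, (r i).size + 2 * m + 4 * ∑ j, (c j).size + 2 * n +
      4 * ε.num.natAbs.size + 2 * ε.den.size + 2 * δ.num.natAbs.size + δ.den.size + 6 := by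
  simp only [cinp, esize_pair, esize_ofFn, esize_nat]
  ring

/-- The parameter of the algorithm. -/
def uP (x : CInp) : ℕ := esize x + x.2.2.1.2 / x.2.2.1.1 + 1

theorem pt_uP : PT ∅ uP :=
  PT.add (PT.add PT.id.size (PT.div PT.snd'.snd.fst.snd PT.snd'.snd.fst.fst)) (PT.const 1)

theorem cs_pos (D : Dat) (s : ℕ) : 0 < cs D s := by
  have h := MM_pos D.m D.n
  unfold cs tcoins gsteps gcoins
  positivity

theorem le_coins (D : Dat) {u : ℕ} (hu : 0 < u) : u ≤ coins D u := by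
  have h1 := cs_pos D (sP u)
  have h2 : 0 < kP u := by unfold kP; positivity
  exact (Nat.le_self_pow (by norm_num) u).trans (Nat.le_mul_of_pos_right _ (Nat.mul_pos h2 h1))

theorem inv_cast {q : ℚ} (h : 0 < q) : 1 / (q : ℝ) = (q.den : ℝ) / (q.num.natAbs : ℕ) := by
  rw [num_cast h, Rat.cast_def, one_div_div]

theorem lt_div_succ {q : ℚ} (h : 0 < q) : 1 / (q : ℝ) < (q.den / q.num.natAbs + 1 : ℕ) := by
  rw [inv_cast h, div_lt_iff₀ (by exact_mod_cast num_pos h), mul_comm]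
  exact_mod_cast Nat.lt_mul_div_succ q.den (num_pos h)

theorem div_le_inv {q : ℚ} (h : 0 < q) : ((q.den / q.num.natAbs : ℕ) : ℝ) ≤ 1 / (q : ℝ) := by
  rw [inv_cast h]
  exact Nat.cast_div_le

theorem uP_le_mu {m n : ℕ} (r : Fin m → ℕ) (c : Fin n → ℕ) (hm : 1 ≤ m) (hn : 1 ≤ n) {ε δ : ℚ}
    (h1 : 0 < ε) (h2 : ε < 1) (h3 : 0 < δ) (h4 : δ < 1) {μ : ℝ}
    (hμ : μ = m + n + ∑ i, Real.logb 2 (r i + 2) + ∑ j, Real.logb 2 (c j + 2) + 1 / (ε : ℝ) +
      Real.logb 2 (1 / (δ : ℝ)) + Real.logb 2 (ε.num * δ.num)) :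
    ((3 * uP (cinp r c ε δ) + 3 : ℕ) : ℝ) ≤ μ ^ 4 := by
  have a0 : 1 < 1 / (ε : ℝ) := one_lt_one_div (by exact_mod_cast h1) (by exact_mod_cast h2)
  have a1 : 0 < Real.logb 2 (1 / (δ : ℝ)) := Real.logb_pos one_lt_two
    (one_lt_one_div (by exact_mod_cast h3) (by exact_mod_cast h4))
  have a2 : Real.logb 2 (1 / (ε : ℝ)) ≤ 1 / (ε : ℝ) := by
    rw [Real.logb_le_iff_le_rpow one_lt_two (by linarith)]
    have := one_add_mul_self_le_rpow_one_add (s := 1) (by norm_num) a0.le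
    norm_num at this ⊢
    linarith
  have a3 : (1 : ℝ) ≤ ε.num := by exact_mod_cast Rat.num_pos.2 h1
  have a4 : (1 : ℝ) ≤ δ.num := by exact_mod_cast Rat.num_pos.2 h3
  have a5 := Real.logb_nonneg one_lt_two a3
  have a5' := Real.logb_nonneg one_lt_two a4
  have a6 : (m : ℝ) ≤ ∑ i, Real.logb 2 (r i + 2) := by
    simpa using Finset.sum_le_sum (s := (univ : Finset (Fin m))) fun i _ => one_le_logb (r i)
  have a7 : (n : ℝ) ≤ ∑ j, Real.logb 2 (c j + 2) := by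
    simpa using Finset.sum_le_sum (s := (univ : Finset (Fin n))) fun j _ => one_le_logb (c j)
  have a8 : ((∑ i, (r i).size : ℕ) : ℝ) ≤ 2 * ∑ i, Real.logb 2 (r i + 2) := by
    rw [Nat.cast_sum, Finset.mul_sum]
    exact Finset.sum_le_sum fun i _ => size_le_two _
  have a9 : ((∑ j, (c j).size : ℕ) : ℝ) ≤ 2 * ∑ j, Real.logb 2 (c j + 2) := by
    rw [Nat.cast_sum, Finset.mul_sum]
    exact Finset.sum_le_sum fun j _ => size_le_two _
  have b1 : (1 : ℝ) ≤ m := by exact_mod_cast hm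
  have b2 : (1 : ℝ) ≤ n := by exact_mod_cast hn
  have b3 := div_le_inv h1
  have c1 := size_le_logb (num_pos h1)
  have c2 := size_le_logb (num_pos h3)
  have c3 := size_den h1
  have c4 := size_den h3
  rw [num_cast h1] at c1
  rw [num_cast h3] at c2
  rw [Real.logb_mul (by linarith) (by linarith)] at hμ
  have e : uP (cinp r c ε δ) = esize (cinp r c ε δ) + ε.den / ε.num.natAbs + 1 := rfl
  rw [e, esize_cinp]
  generalize ∑ i, (r i).size = R at *
  generalize ∑ j, (c j).size = C at *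
  generalize ε.den / ε.num.natAbs = E at *
  push_cast
  have d1 : 5 ≤ μ := by linarith
  have d2 : 25 ≤ μ ^ 2 := by nlinarith
  have d3 : 125 ≤ μ ^ 3 := by nlinarith
  have d4 : 125 * μ ≤ μ ^ 4 := by nlinarith
  linarith

theorem total_le' {s u t c : ℕ} (hs : s ≤ u) (ht : t ≤ (3 * u + 3) ^ c) :
    s + t + 2 ≤ (3 * u + 3) ^ (c + 2) := by
  have h1 : 1 ≤ (3 * u + 3) ^ c := Nat.one_le_pow _ _ (by omega)
  have h2 : (3 * u + 3) ^ (c + 2) = (3 * u + 3) ^ c * ((3 * u + 3) * (3 * u + 3)) := by ring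
  have h3 : (3 * u + 3) ^ c * (u + 3) ≤ (3 * u + 3) ^ c * ((3 * u + 3) * (3 * u + 3)) :=
    Nat.mul_le_mul_left _ (by nlinarith)
  have h4 : u + 2 ≤ (3 * u + 3) ^ c * (u + 2) := Nat.le_mul_of_pos_left _ h1
  have h5 : (3 * u + 3) ^ c * (u + 3) = (3 * u + 3) ^ c * (u + 2) + (3 * u + 3) ^ c := by ring
  omega

theorem bri_row : BRI := by
  intro hP hL
  have hD : PT ∅ fun x : CInp => ((x.1, x.2.1) : Dat) := PT.fst'.pair PT.snd'.fst
  have ht : PT ∅ fun x : CInp => coins (x.1, x.2.1) (uP x) :=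
    (hP CInp (fun x => (x.1, x.2.1)) uP (fun _ => []) hD pt_uP).1
  have hf : PT ∅ fun s : CInp × List Bool =>
      alg (s.1.1, s.1.2.1) (min (uP s.1) s.2.length) s.2 :=
    (hP (CInp × List Bool) (fun s => (s.1.1, s.1.2.1)) (fun s => min (uP s.1) s.2.length)
      (fun s => s.2) (hD.comp PT.fst') (PT.min (pt_uP.comp PT.fst') (PT.length PT.snd'))).2.2
      ((PBd.length (A := ∅) PT.snd').mono fun _ => min_le_right _ _) PT.snd'
  obtain ⟨e, he⟩ := (hP (Dat × Un) (fun s => s.1) (fun s => s.2.v) (fun _ => []) PT.fst'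
    (PT.unVal PT.snd')).2.1 (PBd.unVal (A := ∅) PT.snd')
  obtain ⟨M, e', HM⟩ := exists_machine ht hf
  refine ⟨M, 4 * ((e + 2) * e'), fun m n r c hm hn hrc ε δ h1 h2 h3 h4 L T hLe hT out hout => ?_⟩
  have b1 := uP_le_mu r c hm hn h1 h2 h3 h4 (μ := L + 1 / (ε : ℝ) + Real.logb 2 (1 / (δ : ℝ)) +
    Real.logb 2 (ε.num * δ.num)) (by rw [hLe])
  have b2 : (3 * uP (cinp r c ε δ) + 3) ^ ((e + 2) * e') ≤ T := by
    rw [pow_mul] at hT
    exact_mod_cast (pow_le_pow_left₀ (Nat.cast_nonneg _) b1 _).trans hT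
  obtain ⟨E, hE, u0⟩ : ∃ E : ℕ, ε.den / ε.num.natAbs = E ∧
      uP (cinp r c ε δ) = esize (cinp r c ε δ) + E + 1 := ⟨_, rfl, rfl⟩
  have u1 := esize_cinp r c ε δ
  have u2 : esize ((List.ofFn r, List.ofFn c) : Dat) ≤ esize (cinp r c ε δ) := by
    rw [u1, esize_pair, esize_ofFn, esize_ofFn]
    omega
  have u3 : coins (List.ofFn r, List.ofFn c) (uP (cinp r c ε δ)) ≤
      (3 * uP (cinp r c ε δ) + 3) ^ e := by
    refine (he ((List.ofFn r, List.ofFn c), ⟨uP (cinp r c ε δ)⟩)).trans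
      (Nat.pow_le_pow_left ?_ e)
    rw [esize_pair, esize_un]
    dsimp only
    omega
  have u4 : (∑ i, r i).size ≤ uP (cinp r c ε δ) := by
    have h5 := esize_sum_le (List.ofFn r)
    rw [List.sum_ofFn, esize_nat, esize_ofFn] at h5
    omega
  obtain ⟨h5, h6⟩ := HM (cinp r c ε δ) T (le_trans (by
    rw [pow_mul]
    exact Nat.pow_le_pow_left (total_le' (by omega) u3) e') b2)
  have h7 := hL m n r c (uP (cinp r c ε δ)) hm hn hrc (by omega) (by omega) u4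
  have h8 := half_pow_le h3 (s := uP (cinp r c ε δ)) (by omega)
  have h9 : 1 / (uP (cinp r c ε δ) : ℝ) ≤ ε := by
    have h : (0 : ℝ) < ε := by exact_mod_cast h1
    have h' : 1 / (ε : ℝ) ≤ uP (cinp r c ε δ) :=
      (lt_div_succ h1).le.trans (Nat.cast_le.2 (by rw [hE]; omega))
    exact (one_div_le h (lt_of_lt_of_le (by positivity) h')).1 h'
  have h10 := le_coins (List.ofFn r, List.ofFn c) (u := uP (cinp r c ε δ)) (by omega)
  simp only [ccode_eq] at hout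
  simp only [hout]
  refine ⟨h5, ?_⟩
  rw [frq_eq T fun ρ => ∃ a : ℕ, (M.run (enc (cinp r c ε δ)) ρ).stk 0 = a.bits ∧
      (1 - ε : ℝ) * (tables r c).card ≤ a ∧ (a : ℝ) ≤ (1 + ε) * (tables r c).card,
    mul_div_cancel_right₀ _ (by positivity), h6 fun w => ∃ a : ℕ, w = a.bits ∧
      (1 - ε : ℝ) * (tables r c).card ≤ a ∧ (a : ℝ) ≤ (1 + ε) * (tables r c).card]
  refine le_trans (by linarith) (h7.trans (frq_mono fun ρ hρ h => ?_))
  have h11 := mul_le_mul_of_nonneg_left h9 (Nat.cast_nonneg (tables r c).card)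
  rw [mul_one_div] at h11
  rw [abs_le] at h
  refine ⟨_, rfl, ?_⟩
  dsimp only
  rw [min_eq_left (hρ ▸ h10)]
  change _ ≤ ((alg (List.ofFn r, List.ofFn c) _ ρ : ℕ) : ℝ) ∧
    ((alg (List.ofFn r, List.ofFn c) _ ρ : ℕ) : ℝ) ≤ _
  exact ⟨by linarith [h.1], by linarith [h.2]⟩

end Vale.Agent.P328C
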