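import Vale.Agent.P328C.St

/-!
Self-reduction of contingency tables, zero margins, list form of a stage, and rounding.
-/

namespace Vale.Agent.P328C

open Finset hiding val
open Vale.Agent.P328

/-- Add `k` to the entry `(i, j)`. -/
def bump {m n : ℕ} (i : Fin m) (j : Fin n) (k : ℕ) (X : Fin m → Fin n → ℕ) :
    Fin m → Fin n → ℕ := fun a b => X a b + if a = i ∧ b = j then k else 0

theorem bump_row {m n : ℕ} (i : Fin m) (j : Fin n) (k : ℕ) (X : Fin m → Fin n → ℕ) (a : Fin m) :
    ∑ b, bump i j k X a b = ∑ b, X a b + if a = i then k else 0 := by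
  by_cases h : a = i <;> simp [bump, Finset.sum_add_distrib, h]

theorem bump_col {m n : ℕ} (i : Fin m) (j : Fin n) (k : ℕ) (X : Fin m → Fin n → ℕ) (b : Fin n) :
    ∑ a, bump i j k X a b = ∑ a, X a b + if b = j then k else 0 := by
  by_cases h : b = j <;> simp [bump, Finset.sum_add_distrib, h]

theorem upd_iff {m : ℕ} (r : Fin m → ℕ) (i : Fin m) (k : ℕ) (hk : k ≤ r i) (a : Fin m) (s : ℕ) :
    (s + if a = i then k else 0) = r a ↔ s = Function.update r i (r i - k) a := by
  by_cases h : a = i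
  · subst h
    simp only [if_true, Function.update_self]
    omega
  · simp [h]

theorem bump_mem {m n : ℕ} (r : Fin m → ℕ) (c : Fin n → ℕ) (i : Fin m) (j : Fin n) (k : ℕ)
    (hr : k ≤ r i) (hc : k ≤ c j) (X : Fin m → Fin n → ℕ) :
    bump i j k X ∈ tables r c ↔
      X ∈ tables (Function.update r i (r i - k)) (Function.update c j (c j - k)) := by
  simp only [mem_tables, bump_row, bump_col, upd_iff r i k hr, upd_iff c j k hc]

theorem self_row : SELF := by
  intro m n r c i j k hr hc
  refine Finset.card_bij (fun X _ => bump i j k X) ?_ ?_ ?_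
  · intro X hX
    refine Finset.mem_filter.2 ⟨(bump_mem r c i j k hr hc X).2 hX, ?_⟩
    simp [bump]
  · intro X _ Y _ h
    funext a b
    have := congrFun (congrFun h a) b
    simpa [bump] using this
  · intro Y hY
    obtain ⟨h1, h2⟩ := Finset.mem_filter.1 hY
    have e : bump i j k (fun a b => Y a b - if a = i ∧ b = j then k else 0) = Y := by
      funext a b
      by_cases h : a = i ∧ b = j
      · obtain ⟨rfl, rfl⟩ := h
        simp only [bump, and_self, if_true]
        omega
      · simp [bump, h]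
    exact ⟨_, (bump_mem r c i j k hr hc _).1 (by rw [e]; exact h1), e⟩

theorem zero_row : ZERO := by
  intro m n r c hr hc
  have r0 : ∀ i, r i = 0 := fun i => (Finset.sum_eq_zero_iff.1 hr) i (Finset.mem_univ i)
  have c0 : ∀ j, c j = 0 := fun j => (Finset.sum_eq_zero_iff.1 hc) j (Finset.mem_univ j)
  refine Finset.card_eq_one.2 ⟨fun _ _ => 0, ?_⟩
  ext X
  rw [mem_tables, Finset.mem_singleton]
  constructor
  · rintro ⟨h, _⟩
    funext a b
    exact (Finset.sum_eq_zero_iff.1 ((h a).trans (r0 a))) b (Finset.mem_univ b)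
  · rintro rfl
    simp [r0, c0]

theorem sub_row : SUB := by
  intro m r i k
  apply List.ext_getElem
  · simp [sub]
  · intro a h1 h2
    have ha : a < m := by simpa using h2
    have e : (List.ofFn r).getD a 0 = r ⟨a, ha⟩ := by
      rw [List.getD_eq_getElem _ _ (by simpa using ha)]
      simp
    simp only [sub, List.getElem_map, List.getElem_range, List.getElem_ofFn, e]
    by_cases h : a = i
    · have : (⟨a, ha⟩ : Fin m) = i := Fin.ext h
      rw [if_pos h, this, Function.update_self]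
    · have : (⟨a, ha⟩ : Fin m) ≠ i := fun e => h (congrArg Fin.val e)
      rw [if_neg h, Function.update_of_ne this]

theorem rnd_row : RND := by
  intro u Z P Q hu hP h1 h2
  set A : ℕ := (2 * Q + P) / (2 * P) with hA
  have hP2 : 0 < 2 * P := by omega
  have a1 : 2 * P * A ≤ 2 * Q + P := Nat.mul_div_le _ _
  have a2 : 2 * Q + P < 2 * P * (A + 1) := Nat.lt_mul_div_succ _ hP2
  have hu' : (1 : ℝ) ≤ u := by exact_mod_cast hu
  have hP' : (0 : ℝ) < P := by exact_mod_cast hP
  have hZ : (0 : ℝ) ≤ Z := Nat.cast_nonneg _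
  have hQ : (0 : ℝ) ≤ Q := Nat.cast_nonneg _
  have b1 : 2 * (P : ℝ) * A ≤ 2 * Q + P := by exact_mod_cast a1
  have b2 : 2 * (Q : ℝ) + P < 2 * P * (A + 1) := by exact_mod_cast a2
  -- cleared forms
  have c1 : (4 * (u : ℝ) - 1) * (P * Z) ≤ 4 * u * Q := by
    have : (1 - 1 / (4 * u) : ℝ) = (4 * u - 1) / (4 * u) := by field_simp
    rw [this, div_mul_eq_mul_div, div_le_iff₀ (by positivity)] at h1
    linarith
  have c2 : (4 * (u : ℝ) - 1) * Q ≤ 4 * u * (P * Z) := by
    have : (1 - 1 / (4 * u) : ℝ) = (4 * u - 1) / (4 * u) := by field_simp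
    rw [this, div_mul_eq_mul_div, div_le_iff₀ (by positivity)] at h2
    linarith
  -- |Q - P Z| <= P Z / (3 u)
  have d1 : 3 * (u : ℝ) * (Q - P * Z) ≤ P * Z := by
    have hPZ : 0 ≤ (P : ℝ) * Z := by positivity
    by_cases h : (Q : ℝ) ≤ P * Z
    · nlinarith
    · push Not at h
      nlinarith
  have d2 : 3 * (u : ℝ) * (P * Z - Q) ≤ P * Z := by
    have hPZ : 0 ≤ (P : ℝ) * Z := by positivity
    by_cases h : (P : ℝ) * Z ≤ Q
    · nlinarith
    · push Not at h
      nlinarith
  rw [le_div_iff₀ (by positivity)]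
  -- with D = |A - Z| an integer: 6 u D <= 3 u + 2 Z
  have e1 : 6 * (u : ℝ) * (A - Z) ≤ 3 * u + 2 * Z := by
    have : P * (6 * (u : ℝ) * (A - Z)) ≤ P * (3 * u + 2 * Z) := by nlinarith
    exact le_of_mul_le_mul_left this hP'
  have e2 : 6 * (u : ℝ) * (Z - A) ≤ 3 * u + 2 * Z := by
    have : P * (6 * (u : ℝ) * (Z - A)) ≤ P * (3 * u + 2 * Z) := by nlinarith
    exact le_of_mul_le_mul_left this hP'
  rcases lt_trichotomy A Z with h | h | h
  · have h' : (A : ℝ) + 1 ≤ Z := by exact_mod_cast h
    rw [abs_of_nonpos (by linarith)]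
    nlinarith
  · rw [h]
    simp
  · have h' : (Z : ℝ) + 1 ≤ A := by exact_mod_cast h
    rw [abs_of_nonneg (by linarith)]
    nlinarith

end Vale.Agent.P328C
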