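import Vale.Agent.P328C.St

/-!
The approximation scheme for the number of contingency tables: the numerical rows.
-/

namespace Vale.Agent.P328C

theorem two_le_exp_one : (2 : ℝ) ≤ Real.exp 1 := by
  have := Real.add_one_le_exp (1 : ℝ)
  linarith

theorem exp_neg_le_half_pow (u : ℕ) : Real.exp (-(u : ℝ)) ≤ (1 / 2 : ℝ) ^ u := by
  have h1 : Real.exp (-1) ≤ (1 / 2 : ℝ) := by
    rw [Real.exp_neg, one_div]
    exact inv_anti₀ (by norm_num) two_le_exp_one
  have h2 : Real.exp (-(u : ℝ)) = Real.exp (-1) ^ u := by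
    rw [← Real.exp_nat_mul]; congr 1; ring
  rw [h2]
  exact pow_le_pow_left₀ (Real.exp_pos _).le h1 u

theorem end_row : END := by
  intro q N N' u hq hqu hN h
  have hq' : (0 : ℝ) < q := by exact_mod_cast hq
  have hq1 : (1 : ℝ) ≤ q := by exact_mod_cast hq
  have hqu' : (q : ℝ) ≤ (u : ℝ) ^ 2 := by exact_mod_cast hqu
  have hu0 : (0 : ℝ) ≤ u := Nat.cast_nonneg u
  have h0 : (0 : ℝ) ≤ 1 - 1 / q := by
    have : (1 : ℝ) / q ≤ 1 := by rw [div_le_one hq']; exact hq1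
    linarith
  have h1 : (1 - 1 / q : ℝ) ≤ Real.exp (-(1 / q)) := by
    have := Real.add_one_le_exp (-(1 / q : ℝ))
    linarith
  have h2 : (1 - 1 / q : ℝ) ^ u ^ 3 ≤ Real.exp (-(u : ℝ)) := by
    refine (pow_le_pow_left₀ h0 h1 _).trans ?_
    rw [← Real.exp_nat_mul, Real.exp_le_exp]
    have h3 : (u : ℝ) ≤ (u : ℝ) ^ 3 * (1 / q) := by
      rw [mul_one_div, le_div_iff₀ hq']
      nlinarith [mul_le_mul_of_nonneg_left hqu' hu0]
    push_cast
    linarith
  have hN2 : (N : ℝ) < 2 ^ u := by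
    have : N < 2 ^ u := Nat.size_le.mp hN
    exact_mod_cast this
  have h4 : (N : ℝ) * (1 - 1 / q) ^ u ^ 3 ≤ N * (1 / 2) ^ u :=
    mul_le_mul_of_nonneg_left (h2.trans (exp_neg_le_half_pow u)) (Nat.cast_nonneg N)
  have h5 : (N : ℝ) * (1 / 2) ^ u < 1 := by
    rw [one_div, inv_pow, ← div_eq_mul_inv, div_lt_one (by positivity)]
    exact hN2
  have h6 : (N' : ℝ) < 1 := lt_of_le_of_lt (h.trans h4) h5
  have h7 : N' < 1 := by exact_mod_cast h6
  omega

theorem num_row : NUM := by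
  intro u n hu hn
  have hu' : (0 : ℝ) < u := by exact_mod_cast hu
  have hu1 : (1 : ℝ) ≤ u := by exact_mod_cast hu
  have hn' : (n : ℝ) ≤ u := by exact_mod_cast hn
  refine ⟨?_, ?_, ?_⟩
  · have he : (kP u * (1 / (8 * (u : ℝ) ^ 5)) ^ 2 / 4 : ℝ) = 5 * u + 1 := by
      unfold kP
      push_cast
      field_simp
      ring
    rw [he]
    have h1 : (u : ℝ) ≤ Real.exp u := by
      have := Real.add_one_le_exp (u : ℝ)
      linarith
    have h2 : (u : ℝ) ^ 3 * n ≤ Real.exp u ^ 4 := by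
      calc (u : ℝ) ^ 3 * n ≤ (u : ℝ) ^ 3 * u := by gcongr
        _ = (u : ℝ) ^ 4 := by ring
        _ ≤ Real.exp u ^ 4 := by gcongr
    have h3 : Real.exp u ^ 4 * (Real.exp 1 * Real.exp (-(5 * (u : ℝ) + 1))) =
        Real.exp (-(u : ℝ)) := by
      rw [← Real.exp_nat_mul, ← Real.exp_add, ← Real.exp_add]
      congr 1
      push_cast
      ring
    calc (u : ℝ) ^ 3 * (n * (2 * Real.exp (-(5 * (u : ℝ) + 1))))
        = ((u : ℝ) ^ 3 * n) * (2 * Real.exp (-(5 * (u : ℝ) + 1))) := by ring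
      _ ≤ Real.exp u ^ 4 * (Real.exp 1 * Real.exp (-(5 * (u : ℝ) + 1))) := by
          have := two_le_exp_one
          gcongr
      _ = Real.exp (-(u : ℝ)) := h3
      _ ≤ (1 / 2) ^ u := exp_neg_le_half_pow u
  · have h1 : (u : ℝ) ≤ 2 ^ u := by
      have : u < 2 ^ u := Nat.lt_two_pow_self
      exact_mod_cast this.le
    have h2 : (u : ℝ) ^ 5 ≤ (2 ^ u) ^ 5 := by gcongr
    have h3 : 2 * (1 / 2 : ℝ) ^ sP u = 1 / (8 * (2 ^ u) ^ 5) := by
      unfold sP
      rw [one_div, inv_pow, pow_add, ← pow_mul, mul_comm u 5]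
      field_simp
      norm_num
    rw [h3]
    apply one_div_le_one_div_of_le (by positivity)
    linarith
  · have h4 : (1 : ℝ) ≤ (u : ℝ) ^ 4 := one_le_pow₀ hu1
    have h0 : (-2 : ℝ) ≤ -(1 / (4 * (u : ℝ) ^ 4)) := by
      have : (1 : ℝ) / (4 * (u : ℝ) ^ 4) ≤ 1 := by
        rw [div_le_one (by positivity)]
        linarith
      linarith
    have h1 := one_add_mul_le_pow h0 (u ^ 3)
    have h2 : (1 : ℝ) + ((u ^ 3 : ℕ) : ℝ) * -(1 / (4 * (u : ℝ) ^ 4)) = 1 - 1 / (4 * u : ℝ) := by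
      push_cast
      field_simp
      ring
    rw [h2, ← sub_eq_add_neg] at h1
    exact h1

end Vale.Agent.P328C
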