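import Vale.Agent.P328C.St

/-!
The approximation scheme runs in polynomial time.
-/

namespace Vale.Agent.P328C

open Finset hiding val
open Vale.Agent.P328 Vale.Agent.Lib.PTM Vale.Agent.Lib.PolyTime

section

variable {α : Type} [Enc α]

theorem pt_cs {D : α → Dat} {s : α → ℕ} (hD : PT ∅ D) (hs : PT ∅ s) :
    PT ∅ fun a => cs (D a) (s a) :=
  PT.mul (PT.mul (PT.const 16) (PT.add hs (PT.const 1)))
    (Dat.pt_tcoins hD (Dat.pt_gsteps hD hs))

theorem pb_cs {D : α → Dat} {s : α → ℕ} (hD : PT ∅ D) (hs : PBd s) :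
    PBd fun a => cs (D a) (s a) :=
  ((PBd.const 16).mul (hs.add (PBd.const 1))).mul (Dat.pb_tcoins hD (Dat.pb_gsteps hD hs))

theorem pt_smp {D : α → Dat} {s : α → ℕ} {ρ : α → List Bool} (hD : PT ∅ D) (hs : PT ∅ s)
    (hs' : PBd s) (hρ : PT ∅ ρ) : PT ∅ fun a => smp (D a) (s a) (ρ a) :=
  Dat.pt_output hD hs hs' (PT.take hρ (pt_cs hD hs))

theorem pt_thr {D : α → Dat} (hD : PT ∅ D) : PT ∅ fun a => thr (D a) :=
  PT.div (PT.sub (PT.add (Dat.pt_r hD (Dat.pt_i0 hD)) (Dat.pt_n hD)) (PT.const 1)) (Dat.pt_n hD)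

theorem pt_cnt {D : α → Dat} {s B K j : α → ℕ} {ρ : α → List Bool} (hD : PT ∅ D) (hs : PT ∅ s)
    (hs' : PBd s) (hB : PT ∅ B) (hK : PT ∅ K) (hK' : PBd K) (hρ : PT ∅ ρ) (hj : PT ∅ j) :
    PT ∅ fun a => cnt (D a) (s a) (B a) (K a) (ρ a) (j a) := by
  have k : PT ∅ fun p : α × ℕ => p.1 := PT.fst'
  have h1 : PT ∅ fun p : α × ℕ => smp (D p.1) (s p.1) (blk (B p.1) p.2 (ρ p.1)) :=
    pt_smp (hD.comp k) (hs.comp k) (hs'.comp k) (pt_blk (hB.comp k) PT.snd' (hρ.comp k))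
  have h2 : PT ∅ fun p : α × ℕ =>
      ent (smp (D p.1) (s p.1) (blk (B p.1) p.2 (ρ p.1))) (D p.1).i0 (j p.1) :=
    pt_ent h1 (Dat.pt_i0 (hD.comp k)) (hj.comp k)
  exact pt_sumR (F := fun a b => if thr (D a) ≤
      ent (smp (D a) (s a) (blk (B a) b (ρ a))) (D a).i0 (j a) then 1 else 0) hK hK'
    (PT.ite (PT.le (pt_thr (hD.comp k)) h2) (PT.const 1) (PT.const 0))

theorem pt_best {D : α → Dat} {s B K : α → ℕ} {ρ : α → List Bool} (hD : PT ∅ D) (hs : PT ∅ s)
    (hs' : PBd s) (hB : PT ∅ B) (hK : PT ∅ K) (hK' : PBd K) (hρ : PT ∅ ρ) :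
    PT ∅ fun a => best (D a) (s a) (B a) (K a) (ρ a) := by
  have k : PT ∅ fun p : α × ℕ => p.1 := PT.fst'
  exact pt_amax (PT.map (f := fun a j => cnt (D a) (s a) (B a) (K a) (ρ a) j)
    (PT.range (Dat.pt_n hD) (Dat.pb_n hD))
    (pt_cnt (hD.comp k) (hs.comp k) (hs'.comp k) (hB.comp k) (hK.comp k) (hK'.comp k)
      (hρ.comp k) PT.snd'))

theorem pt_sub {l : α → List ℕ} {i k : α → ℕ} (hl : PT ∅ l) (hi : PT ∅ i) (hk : PT ∅ k) :
    PT ∅ fun a => sub (l a) (i a) (k a) := by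
  have e : PT ∅ fun p : α × ℕ => p.1 := PT.fst'
  have h1 : PT ∅ fun p : α × ℕ => (l p.1).getD p.2 0 := PT.getD (hl.comp e) PT.snd' (PT.const 0)
  exact PT.map (f := fun a b => if b = i a then (l a).getD b 0 - k a else (l a).getD b 0)
    (PT.range hl.length (PBd.length hl))
    (PT.ite (PT.eqNat PT.snd' (hi.comp e)) (PT.sub h1 (hk.comp e)) h1)

theorem pt_stage {x : α → Dat × ℕ} {s B K : α → ℕ} {ρ : α → List Bool} (hx : PT ∅ x)
    (hs : PT ∅ s) (hs' : PBd s) (hB : PT ∅ B) (hK : PT ∅ K) (hK' : PBd K) (hρ : PT ∅ ρ) :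
    PT ∅ fun a => stage (s a) (B a) (K a) (x a) (ρ a) := by
  have hD : PT ∅ fun a => (x a).1 := hx.fst
  have h1 := pt_best hD hs hs' hB hK hK' hρ
  have h2 := pt_thr hD
  exact ((pt_sub hD.fst (Dat.pt_i0 hD) h2).pair (pt_sub hD.snd h1 h2)).pair
    (PT.mul hx.snd (pt_cnt hD hs hs' hB hK hK' hρ h1))

theorem pt_sP {u : α → ℕ} (hu : PT ∅ u) : PT ∅ fun a => sP (u a) :=
  PT.add (PT.mul (PT.const 5) hu) (PT.const 4)

theorem pb_sP {u : α → ℕ} (hu : PBd u) : PBd fun a => sP (u a) :=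
  ((PBd.const 5).mul hu).add (PBd.const 4)

theorem pt_kP {u : α → ℕ} (hu : PT ∅ u) : PT ∅ fun a => kP (u a) :=
  PT.mul (PT.mul (PT.const 256) (PT.powConst hu 10))
    (PT.add (PT.mul (PT.const 5) hu) (PT.const 1))

theorem pb_kP {u : α → ℕ} (hu : PBd u) : PBd fun a => kP (u a) :=
  ((PBd.const 256).mul (hu.pow 10)).mul (((PBd.const 5).mul hu).add (PBd.const 1))

end

theorem map_getD (l : List ℕ) : ((List.range l.length).map fun a => l.getD a 0) = l := by
  apply List.ext_getElem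
  · simp
  · intro i h1 h2
    simp [List.getD_eq_getElem?_getD, List.getElem?_eq_getElem h2]

theorem esize_sub (l : List ℕ) (i k : ℕ) : esize (sub l i k) ≤ esize l := by
  conv_rhs => rw [← map_getD l]
  rw [sub, esize_list, esize_list, List.map_map, List.map_map]
  refine List.sum_le_sum fun a _ => ?_
  have h : esize (if a = i then l.getD a 0 - k else l.getD a 0) ≤ esize (l.getD a 0) :=
    esize_nat_mono (by split_ifs <;> omega)
  simp only [Function.comp]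
  omega

theorem cnt_le (D : Dat) (s B K : ℕ) (ρ : List Bool) (j : ℕ) : cnt D s B K ρ j ≤ K := by
  unfold cnt sumR
  refine (List.sum_le_card_nsmul _ 1 fun x hx => ?_).trans (by simp)
  obtain ⟨a, -, rfl⟩ := List.mem_map.1 hx
  split_ifs <;> omega

theorem esize_stage (s B K : ℕ) (x : Dat × ℕ) (ρ : List Bool) :
    esize (stage s B K x ρ).1 ≤ esize x.1 ∧ (stage s B K x ρ).2 ≤ x.2 * K := by
  refine ⟨?_, Nat.mul_le_mul_left _ (cnt_le _ _ _ _ _ _)⟩
  have h1 := esize_sub x.1.1 x.1.i0 (thr x.1)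
  have h2 := esize_sub x.1.2 (best x.1 s B K ρ) (thr x.1)
  have h3 : esize x.1 = 2 * esize x.1.1 + esize x.1.2 + 1 := esize_pair x.1.1 x.1.2
  have h4 : esize (stage s B K x ρ).1 = 2 * esize (sub x.1.1 x.1.i0 (thr x.1)) +
      esize (sub x.1.2 (best x.1 s B K ρ) (thr x.1)) + 1 := esize_pair _ _
  omega

theorem esize_runL (C s B K : ℕ) (l : List ℕ) (x : Dat × ℕ) (ρ : List Bool) :
    esize (runL C (fun _ : ℕ => stage s B K) l x ρ).1 ≤ esize x.1 ∧
      (runL C (fun _ : ℕ => stage s B K) l x ρ).2 ≤ x.2 * K ^ l.length := by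
  induction l generalizing x ρ with
  | nil => simp [runL]
  | cons a l ih =>
    have h1 := ih (stage s B K x (ρ.take C)) (ρ.drop C)
    have h2 := esize_stage s B K x (ρ.take C)
    refine ⟨h1.1.trans h2.1, h1.2.trans ?_⟩
    rw [List.length_cons, pow_succ', ← mul_assoc]
    exact Nat.mul_le_mul_right _ h2.2

theorem esize_run (C s B K t i : ℕ) (D : Dat) (ρ : List Bool) :
    esize (runL C (fun _ : ℕ => stage s B K) ((List.range t).take i) (D, 1) ρ) ≤
      2 * esize D + (t * K + 1) + 1 := by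
  have h := esize_runL C s B K ((List.range t).take i) (D, 1) ρ
  generalize runL C (fun _ : ℕ => stage s B K) ((List.range t).take i) (D, 1) ρ = y at h ⊢
  have h1 : esize y = 2 * esize y.1 + esize y.2 + 1 := esize_pair y.1 y.2
  have h2 : ((List.range t).take i).length ≤ t := by simp
  have h3 := esize_nat_mono h.2
  rw [one_mul] at h3
  have h4 := esize_pow_le K ((List.range t).take i).length
  have h5 := Nat.mul_le_mul h2 (esize_nat_le_self K)
  have h6 : esize y.1 ≤ esize D := h.1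
  omega

theorem poly_row : POLY := by
  intro α _ D u ρ hD hu
  have h1 := pt_sP hu
  have h2 := pt_kP hu
  have h3 := pt_cs hD h1
  have h4 := PT.powConst hu 3
  refine ⟨PT.mul h4 (PT.mul h2 h3), fun hu' =>
    (hu'.pow 3).mul ((pb_kP hu').mul (pb_cs hD (pb_sP hu'))), fun hu' hρ => ?_⟩
  have k : PT ∅ fun p : α × ℕ × (Dat × ℕ) × List Bool => p.1 := PT.fst'
  have h5 : PT ∅ fun a => run (D a) (u a) (ρ a) :=
    PT.runL (B := fun a => kP (u a) * cs (D a) (sP (u a)))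
      (step := fun a (_ : ℕ) => stage (sP (u a)) (cs (D a) (sP (u a))) (kP (u a)))
      (l := fun a => List.range (u a ^ 3)) (s := fun a => (D a, 1)) (PT.mul h2 h3)
      (pt_stage PT.snd'.snd.fst (h1.comp k) ((pb_sP hu').comp k) (h3.comp k) (h2.comp k)
        ((pb_kP hu').comp k) PT.snd'.snd.snd)
      (PT.range h4 (hu'.pow 3)) (hD.pair (PT.const 1)) hρ
      (b := fun a => 2 * esize (D a) + (u a ^ 3 * kP (u a) + 1) + 1)
      ((((PBd.const 2).mul hD.pbd).add (((hu'.pow 3).mul (pb_kP hu')).add (PBd.const 1))).add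
        (PBd.const 1)) fun a i => esize_run _ _ _ _ _ _ _ _
  exact PT.div (PT.add (PT.mul (PT.const 2) (PT.pow h2 h4 (hu'.pow 3))) h5.snd)
    (PT.mul (PT.const 2) h5.snd)

end Vale.Agent.P328C
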