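import Vale.Agent.P328C.Law
import Vale.Agent.P328C.Cnt
import Vale.Agent.P328C.Num
import Vale.Agent.P328C.Poly
import Vale.Agent.P328C.Bri

/-!
The approximation scheme for the number of contingency tables.
-/

namespace Vale.Agent.P328C

theorem fpras : Fpras :=
  bri_row poly_row (law self_row zero_row sub_row rnd_row end_row num_row)

end Vale.Agent.P328C
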