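import Vale.Agent.P328C.St

/-!
The law of the estimate.
-/

namespace Vale.Agent.P328C

open Finset hiding val
open Vale.Agent.P328 Vale.Agent.Lib.PTM Vale.Agent.Lib.PolyTime

theorem ent_ofFn {m n : ℕ} (X : Fin m → Fin n → ℕ) (i : Fin m) (j : Fin n) :
    ent (List.ofFn fun i => List.ofFn (X i)) i j = X i j := by
  simp [ent, List.getD_eq_getElem?_getD]

theorem samp {m n : ℕ} (r : Fin m → ℕ) (c : Fin n → ℕ) (hm : 1 ≤ m) (hn : 1 ≤ n)
    (hrc : ∑ i, r i = ∑ j, c j) (s B : ℕ) (hB : cs (List.ofFn r, List.ofFn c) s ≤ B) :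
    ∃ g : List Bool → Fin m → Fin n → ℕ, (∀ ρ, g ρ ∈ tables r c ∧ ∀ (i : Fin m) (j : Fin n),
      ent (smp (List.ofFn r, List.ofFn c) s ρ) i j = g ρ i j) ∧
      ∀ (E : (Fin m → Fin n → ℕ) → Prop) [DecidablePred E], |Ex B (fun ρ => ind (E (g ρ))) -
        ((tables r c).filter E).card / (tables r c).card| ≤ 2 * (1 / 2) ^ s := by
  obtain ⟨i0, hi, hr⟩ := amax_spec hm r
  obtain ⟨j0, hj, hc⟩ := amax_spec hn c
  have hR : Dat.Rel (List.ofFn r, List.ofFn c) (⟨r, c, i0, j0, hr, hc, hrc⟩ : Par m n) :=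
    ⟨List.length_ofFn, List.length_ofFn, List.sum_ofFn, getD_ofFn r, getD_ofFn c, hi, hj⟩
  have h1 := Par.facts (⟨r, c, i0, j0, hr, hc, hrc⟩ : Par m n)
  have h2 := Par.output_tv h1 (first_mem hrc) s
  have h0 : 16 * (s + 1) * tcoins m n (⟨r, c, i0, j0, hr, hc, hrc⟩ : Par m n).N (gsteps m n s) =
      cs (List.ofFn r, List.ofFn c) s := by
    rw [cs, hR.m, hR.n, hR.N]
  rw [h0] at h2
  set o := (⟨r, c, i0, j0, hr, hc, hrc⟩ : Par m n).output
    (fun (i : Fin m) (j : Fin n) => firstF (List.ofFn r) (List.ofFn c) i j) s with ho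
  have h3 : ∀ ρ, o ρ ∈ tables r c := fun ρ => Par.output_mem h1 (first_mem hrc) s ρ
  refine ⟨fun ρ => o (ρ.take (cs (List.ofFn r, List.ofFn c) s)), fun ρ => ⟨h3 _, fun i j => ?_⟩,
    fun E _ => ?_⟩
  · have h4 := hR.output h1 (first_mem hrc) (fun _ _ => rfl) s
      (ρ.take (cs (List.ofFn r, List.ofFn c) s))
    rw [mat_eq] at h4
    rw [smp, EncInj.inj h4, ent_ofFn]
  · rw [Ex_take hB fun ρ => ind (E (o ρ))]
    have h5 : ∀ ρ, ind (E (o ρ)) = ∑ X ∈ (tables r c).filter E, ind (o ρ = X) := by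
      intro ρ
      by_cases h : E (o ρ)
      · rw [ind_of h, sum_eq_single_of_mem (o ρ) (mem_filter.2 ⟨h3 ρ, h⟩), ind_of rfl]
        exact fun X _ hX => ind_of_not fun e => hX e.symm
      · rw [ind_of_not h]
        refine (sum_eq_zero fun X hX => ind_of_not fun e => h ?_).symm
        rw [e]
        exact (mem_filter.1 hX).2
    simp only [h5]
    rw [Ex_sum, div_eq_mul_one_div, ← nsmul_eq_mul, ← sum_const, ← sum_sub_distrib]
    refine (abs_sum_le_sum_abs _ _).trans (le_trans (sum_le_sum_of_subset_of_nonneg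
      (filter_subset _ _) fun _ _ _ => abs_nonneg _) (le_trans (le_of_eq ?_) h2))
    refine sum_congr rfl fun X _ => ?_
    rw [← frq_eq_Ex, frq_eq_ex]

theorem sum_update {m : ℕ} (r : Fin m → ℕ) (i : Fin m) {k : ℕ} (hk : k ≤ r i) :
    ∑ a, Function.update r i (r i - k) a + k = ∑ a, r a := by
  rw [sum_update_of_mem (mem_univ i), ← add_sum_erase univ r (mem_univ i), sdiff_singleton_eq_erase]
  omega

theorem ceil_facts {x n : ℕ} (hn : 1 ≤ n) :
    (x + n - 1) / n ≤ x ∧ x ≤ n * ((x + n - 1) / n) ∧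
      (0 < (x + n - 1) / n → n * ((x + n - 1) / n - 1) < x) := by
  have h1 := Nat.div_add_mod (x + n - 1) n
  have h2 := Nat.mod_lt (x + n - 1) hn
  generalize (x + n - 1) / n = k at *
  generalize (x + n - 1) % n = t at *
  have h3 : 0 < k → n * (k - 1) < x := by
    intro h
    obtain ⟨k, rfl⟩ : ∃ k', k = k' + 1 := ⟨k - 1, by omega⟩
    rw [Nat.add_sub_cancel]
    rw [mul_add, mul_one] at h1
    omega
  refine ⟨?_, by omega, h3⟩
  rcases Nat.eq_zero_or_pos k with h | h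
  · omega
  · have h4 := h3 h
    have h5 : k - 1 ≤ n * (k - 1) := Nat.le_mul_of_pos_left _ hn
    omega

theorem ratio {a K Z Z' n η γ : ℝ} (hK : 0 < K) (hZ : 0 < Z) (ha : K ≤ n * a) (h0 : 0 ≤ a)
    (hη : 0 ≤ η) (hγ : n * η ≤ γ) (hγ1 : γ ≤ 1) (h : |a - K * (Z' / Z)| ≤ K * η) :
    (1 - γ) * (a * Z) ≤ Z' * K ∧ (1 - γ) * (Z' * K) ≤ a * Z := by
  have h1 : K * η ≤ γ * a := by
    calc K * η ≤ n * a * η := mul_le_mul_of_nonneg_right ha hη
      _ = n * η * a := by ring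
      _ ≤ γ * a := mul_le_mul_of_nonneg_right hγ h0
  have h2 : Z' * K = K * (Z' / Z) * Z := by field_simp
  have hγ0 : 0 ≤ γ * a := le_trans (by positivity) h1
  rw [h2]
  generalize K * (Z' / Z) = y at *
  obtain ⟨h3, h4⟩ := abs_le.1 h
  have h5 : (1 - γ) * a ≤ y := by linarith
  have h6 : (1 - γ) * y ≤ a := by
    have h7 : (1 - γ) * y ≤ (1 - γ) * (a + γ * a) :=
      mul_le_mul_of_nonneg_left (by linarith) (by linarith)
    rcases le_total 0 γ with hg | hg
    · nlinarith [mul_nonneg hg hγ0]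
    · have h8 : γ * a = 0 := le_antisymm (mul_nonpos_of_nonpos_of_nonneg hg h0) hγ0
      nlinarith
  exact ⟨by nlinarith [mul_le_mul_of_nonneg_right h5 hZ.le],
    by nlinarith [mul_le_mul_of_nonneg_right h6 hZ.le]⟩

theorem stage_law (self : SELF) (sb : SUB) {m n : ℕ} (r : Fin m → ℕ) (c : Fin n → ℕ) (hm : 1 ≤ m)
    (hn : 1 ≤ n) (hrc : ∑ i, r i = ∑ j, c j) (s B K : ℕ) (hK : 0 < K)
    (hB : cs (List.ofFn r, List.ofFn c) s ≤ B) {τ γ : ℝ} (h0 : 0 ≤ τ) (h1 : τ ≤ 1)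
    (hγ : n * (2 * (1 / 2) ^ s + τ) ≤ γ) (hγ1 : γ ≤ 1) (P : ℕ) :
    1 - n * (2 * Real.exp (-(K * τ ^ 2 / 4))) ≤ Ex (K * B) fun ρ => ind
      (∃ (r' : Fin m → ℕ) (c' : Fin n → ℕ) (a : ℕ),
        stage s B K ((List.ofFn r, List.ofFn c), P) ρ = ((List.ofFn r', List.ofFn c'), P * a) ∧
        ∑ i, r' i = ∑ j, c' j ∧
        ((∑ i, r' i : ℕ) : ℝ) ≤ (∑ i, r i : ℕ) * (1 - 1 / ((m * n : ℕ) : ℝ)) ∧ 0 < a ∧
        (1 - γ) * (a * (tables r c).card) ≤ (tables r' c').card * K ∧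
        (1 - γ) * ((tables r' c').card * K) ≤ a * (tables r c).card) := by
  obtain ⟨g, hg, hE⟩ := samp r c hm hn hrc s B hB
  obtain ⟨i0, hi, hr⟩ := amax_spec hm r
  set D : Dat := (List.ofFn r, List.ofFn c) with hD
  have hi' : D.i0 = i0 := hi
  have hn' : D.n = n := List.length_ofFn
  have hk : thr D = (r i0 + n - 1) / n := by
    rw [thr, hi', hn']
    exact congrArg (fun x => (x + n - 1) / n) (getD_ofFn r i0)
  obtain ⟨k1, k2, k3⟩ := ceil_facts (x := r i0) hn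
  rw [← hk] at k1 k2 k3
  set k := thr D with hk'
  set X : Fin n → List Bool → ℝ := fun j ρ => ind (k ≤ g ρ i0 j) with hX
  have hcnt : ∀ (ρ : List Bool) (j : Fin n), cnt D s B K ρ j =
      ∑ a ∈ range K, if k ≤ g (blk B a ρ) i0 j then 1 else 0 := by
    intro ρ j
    rw [cnt, hi', ← Fin.sum_univ_eq_sum_range (fun a => if k ≤ g (blk B a ρ) i0 j then 1 else 0)]
    exact sumR_eq fun a => by rw [(hg _).2]
  have hcnt' : ∀ (ρ : List Bool) (j : Fin n), ((cnt D s B K ρ j : ℕ) : ℝ) =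
      ∑ a ∈ range K, X j (P308.blk B ρ a) := by
    intro ρ j
    rw [hcnt, Nat.cast_sum]
    refine sum_congr rfl fun a _ => ?_
    change _ = ind (k ≤ g (blk B a ρ) i0 j)
    unfold ind
    split_ifs <;> simp
  have hZ : (0 : ℝ) < (tables r c).card := by exact_mod_cast card_pos.2 ⟨_, first_mem hrc⟩
  have hK' : (0 : ℝ) < K := by exact_mod_cast hK
  refine le_trans ?_ (Ex_mono (F := fun ρ => 1 - ∑ j : Fin n,
    ind (K * τ < |∑ a ∈ range K, X j (P308.blk B ρ a) - K * Ex B (X j)|)) fun ρ _ => ?_)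
  · rw [Ex_sub, Ex_const, Ex_sum]
    have h7 := sum_le_card_nsmul univ _ _ fun (j : Fin n) _ => P308.chernoff K B (X j)
      (fun _ => Lib.PTM.ind_nonneg _) (fun _ => ind_le_one _) h0 h1
    rw [card_univ, Fintype.card_fin, nsmul_eq_mul] at h7
    linarith
  by_cases h : ∃ j : Fin n, K * τ < |∑ a ∈ range K, X j (P308.blk B ρ a) - K * Ex B (X j)|
  · obtain ⟨j, hj⟩ := h
    have h2 := single_le_sum (f := fun j : Fin n =>
      ind (K * τ < |∑ a ∈ range K, X j (P308.blk B ρ a) - K * Ex B (X j)|))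
      (fun _ _ => Lib.PTM.ind_nonneg _) (mem_univ j)
    rw [ind_of hj] at h2
    exact le_trans (by linarith) (Lib.PTM.ind_nonneg _)
  refine le_trans (sub_le_self _ (sum_nonneg fun _ _ => Lib.PTM.ind_nonneg _)) (ind_of ?_).ge
  obtain ⟨j0, hj, hc⟩ := amax_spec hn fun j : Fin n => cnt D s B K ρ j
  have hb : best D s B K ρ = j0 := by
    rw [best, hn', ← hj]
    congr 1
    exact List.ext_getElem (by simp) fun j _ _ => by simp
  have h3 : K ≤ n * cnt D s B K ρ j0 := by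
    calc K = ∑ _a ∈ range K, 1 := by simp
      _ ≤ ∑ a ∈ range K, ∑ j : Fin n, if k ≤ g (blk B a ρ) i0 j then 1 else 0 := by
        refine sum_le_sum fun a _ => ?_
        have h4 : ∃ j, k ≤ g (blk B a ρ) i0 j := by
          by_contra h5
          have h6 : ∀ j, g (blk B a ρ) i0 j < k := fun j => not_le.1 fun e => h5 ⟨j, e⟩
          have h7 := sum_le_card_nsmul univ (g (blk B a ρ) i0) (k - 1) fun j _ => by
            have := h6 j
            omega
          rw [(mem_tables.1 (hg _).1).1, card_univ, Fintype.card_fin, smul_eq_mul] at h7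
          have := k3 (by have := h6 ⟨0, hn⟩; omega)
          omega
        obtain ⟨j, h5⟩ := h4
        have h6 := single_le_sum (f := fun j : Fin n => if k ≤ g (blk B a ρ) i0 j then 1 else 0)
          (fun _ _ => Nat.zero_le _) (mem_univ j)
        rwa [if_pos h5] at h6
      _ = ∑ j : Fin n, cnt D s B K ρ j := by
        rw [sum_comm]
        exact sum_congr rfl fun j _ => (hcnt ρ j).symm
      _ ≤ _ := by
        have h7 := sum_le_card_nsmul univ _ _ fun j _ => hc j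
        rwa [card_univ, Fintype.card_fin, smul_eq_mul] at h7
  have h4 : 0 < cnt D s B K ρ j0 := Nat.pos_of_ne_zero fun e => by rw [e] at h3; omega
  have h5 : k ≤ c j0 := by
    have h6 := h4.ne'
    rw [hcnt] at h6
    obtain ⟨a, -, ha⟩ := exists_ne_zero_of_sum_ne_zero h6
    have h7 : k ≤ g (blk B a ρ) i0 j0 := by
      by_contra h8
      exact ha (if_neg h8)
    rw [← (mem_tables.1 (hg (blk B a ρ)).1).2 j0]
    exact h7.trans (single_le_sum (f := fun i => g (blk B a ρ) i j0) (fun _ _ => Nat.zero_le _)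
      (mem_univ i0))
  have s1 := sum_update r i0 k1
  have s2 := sum_update c j0 h5
  refine ⟨Function.update r i0 (r i0 - k), Function.update c j0 (c j0 - k), cnt D s B K ρ j0,
    ?_, by omega, ?_, h4, ?_⟩
  · rw [stage]
    dsimp only
    rw [hb, hi', ← hk', ← sb, ← sb]
  · have h6 := sum_le_card_nsmul univ r _ fun i _ => hr i
    rw [card_univ, Fintype.card_fin, smul_eq_mul] at h6
    have h7 : ∑ i, r i ≤ m * n * k := by
      rw [mul_assoc]
      exact h6.trans (Nat.mul_le_mul_left _ k2)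
    have h8 : (0 : ℝ) < (m * n : ℕ) := by exact_mod_cast Nat.mul_pos hm hn
    have h9 : ((∑ i, r i : ℕ) : ℝ) / (m * n : ℕ) ≤ k := by
      rw [div_le_iff₀' h8]
      exact_mod_cast h7
    have h10 : ((∑ a, Function.update r i0 (r i0 - k) a : ℕ) : ℝ) + k = (∑ a, r a : ℕ) := by
      exact_mod_cast s1
    rw [mul_sub, mul_one, mul_one_div]
    linarith
  · rw [self m n r c i0 j0 k k1 h5]
    refine ratio (n := n) hK' hZ (by exact_mod_cast h3) (Nat.cast_nonneg _) (by positivity) hγ hγ1 ?_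
    have h6 := not_lt.1 fun e => h ⟨j0, e⟩
    have h7 := mul_le_mul_of_nonneg_left (hE fun Y => k ≤ Y i0 j0) hK'.le
    rw [← abs_of_pos hK', ← abs_mul, abs_of_pos hK', mul_sub] at h7
    rw [hcnt', mul_add]
    exact (abs_sub_le _ (K * Ex B (X j0)) _).trans (by linarith)

theorem cs_mono {m n : ℕ} {r r' : Fin m → ℕ} {c c' : Fin n → ℕ} (h : ∑ i, r' i ≤ ∑ i, r i) (s : ℕ) :
    cs (List.ofFn r', List.ofFn c') s ≤ cs (List.ofFn r, List.ofFn c) s := by
  have h1 := Nat.size_le_size h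
  simp only [cs, tcoins, Dat.m, Dat.n, Dat.N, List.length_ofFn, List.sum_ofFn]
  gcongr

theorem law (self : SELF) (zero : ZERO) (sb : SUB) (rnd : RND) (en : END) (num : NUM) : LAW := by
  intro m n r c u hm hn hrc hmu hnu hN
  have hu : 0 < u := by omega
  have hu' : (1 : ℝ) ≤ u := by exact_mod_cast hu
  obtain ⟨n1, n2, n3⟩ := num u n hu hnu
  have hK : 0 < kP u := by unfold kP; positivity
  have p4 : (1 : ℝ) ≤ u ^ 4 := one_le_pow₀ hu'
  have p5 : (1 : ℝ) ≤ u ^ 5 := one_le_pow₀ hu'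
  set γ : ℝ := 1 / (4 * (u : ℝ) ^ 4) with hγ
  have g1 : γ ≤ 1 := by
    rw [hγ, div_le_one (by positivity)]
    linarith
  have g2 : n * (2 * (1 / 2 : ℝ) ^ sP u + 1 / (8 * (u : ℝ) ^ 5)) ≤ γ := by
    have h1 : (n : ℝ) ≤ u := by exact_mod_cast hnu
    calc _ ≤ (u : ℝ) * (1 / (8 * (u : ℝ) ^ 5) + 1 / (8 * (u : ℝ) ^ 5)) := by gcongr
      _ = γ := by rw [hγ]; field_simp; norm_num
  have q0 : (1 : ℝ) ≤ (m * n : ℕ) := by exact_mod_cast Nat.mul_pos hm hn
  have q1 : (0 : ℝ) ≤ 1 - 1 / (m * n : ℕ) := by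
    rw [sub_nonneg, div_le_one (by linarith)]
    exact q0
  have q2 : (1 : ℝ) - 1 / (m * n : ℕ) ≤ 1 := sub_le_self _ (by positivity)
  have key := runL_good (B := kP u * cs (List.ofFn r, List.ofFn c) (sP u))
    (step := fun _ : ℕ => stage (sP u) (cs (List.ofFn r, List.ofFn c) (sP u)) (kP u))
    (I := fun t x => ∃ (r' : Fin m → ℕ) (c' : Fin n → ℕ), x.1 = (List.ofFn r', List.ofFn c') ∧
      ∑ i, r' i = ∑ j, c' j ∧
      ((∑ i, r' i : ℕ) : ℝ) ≤ (∑ i, r i : ℕ) * (1 - 1 / ((m * n : ℕ) : ℝ)) ^ t ∧ 0 < x.2 ∧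
      (1 - γ) ^ t * (x.2 * (tables r c).card) ≤ (tables r' c').card * (kP u : ℝ) ^ t ∧
      (1 - γ) ^ t * ((tables r' c').card * (kP u : ℝ) ^ t) ≤ x.2 * (tables r c).card)
    (p := n * (2 * Real.exp (-(kP u * (1 / (8 * (u : ℝ) ^ 5)) ^ 2 / 4)))) (by positivity)
    (T := u ^ 3) ?_ (List.range (u ^ 3)) (k := 0) (by simp) (s := ((List.ofFn r, List.ofFn c), 1))
    ⟨r, c, rfl, hrc, by simp, one_pos, by simp, by simp⟩
    (m := coins (List.ofFn r, List.ofFn c) u) (by simp [coins])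
  · rw [frq_eq_Ex]
    rw [List.length_range, zero_add] at key
    push_cast at key
    refine le_trans (by linarith) (key.trans (Ex_mono fun ρ _ => ind_mono ?_))
    rintro ⟨r', c', -, h2, h3, h4, h5, h6⟩
    have h7 : ∑ i, r' i = 0 := en (m * n) _ _ u (Nat.mul_pos hm hn)
      (by rw [sq]; exact Nat.mul_le_mul hmu hnu) hN (by push_cast; exact h3)
    rw [zero m n r' c' h7 (h2 ▸ h7), Nat.cast_one, one_mul] at h5 h6
    refine rnd u _ _ _ hu h4 ?_ ?_
    · push_cast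
      exact (mul_le_mul_of_nonneg_right n3 (by positivity)).trans h5
    · push_cast
      exact (mul_le_mul_of_nonneg_right n3 (by positivity)).trans h6
  rintro - t - ⟨D, P⟩ ⟨r', c', h1, h2, h3, h4, h5, h6⟩
  dsimp only at h1 h4 h5 h6
  subst h1
  have h7 : ∑ i, r' i ≤ ∑ i, r i := by
    exact_mod_cast h3.trans (mul_le_of_le_one_right (Nat.cast_nonneg _) (pow_le_one₀ q1 q2))
  refine (stage_law self sb r' c' hm hn h2 (sP u) _ (kP u) hK (cs_mono h7 _) (by positivity)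
    (by rw [div_le_one (by positivity)]; linarith) g2 g1 P).trans
    (Ex_mono fun ρ _ => ind_mono ?_)
  rintro ⟨r'', c'', a, e1, e2, e3, e4, e5, e6⟩
  have g3 : 0 ≤ 1 - γ := by linarith
  have g4 : 0 ≤ (1 - γ) ^ t := pow_nonneg g3 t
  have g5 : (0 : ℝ) ≤ (kP u : ℝ) ^ t := by positivity
  have g6 : (0 : ℝ) ≤ a := Nat.cast_nonneg a
  rw [e1]
  refine ⟨r'', c'', rfl, e2, ?_, Nat.mul_pos h4 e4, ?_, ?_⟩
  · rw [pow_succ, ← mul_assoc]
    exact e3.trans (mul_le_mul_of_nonneg_right h3 q1)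
  · push_cast
    calc _ = (1 - γ) * a * ((1 - γ) ^ t * (P * (tables r c).card)) := by ring
      _ ≤ (1 - γ) * a * ((tables r' c').card * (kP u : ℝ) ^ t) :=
        mul_le_mul_of_nonneg_left h5 (mul_nonneg g3 g6)
      _ = (1 - γ) * (a * (tables r' c').card) * (kP u : ℝ) ^ t := by ring
      _ ≤ (tables r'' c'').card * kP u * (kP u : ℝ) ^ t := mul_le_mul_of_nonneg_right e5 g5
      _ = _ := by ring
  · push_cast
    calc _ = (1 - γ) * ((tables r'' c'').card * kP u) * ((1 - γ) ^ t * (kP u : ℝ) ^ t) := by ring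
      _ ≤ a * (tables r' c').card * ((1 - γ) ^ t * (kP u : ℝ) ^ t) :=
        mul_le_mul_of_nonneg_right e6 (mul_nonneg g4 g5)
      _ = a * ((1 - γ) ^ t * ((tables r' c').card * (kP u : ℝ) ^ t)) := by ring
      _ ≤ a * (P * (tables r c).card) := mul_le_mul_of_nonneg_left h6 g6
      _ = _ := by ring

end Vale.Agent.P328C
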