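import Vale.Agent.P328.GBridge
import Vale.Agent.P328.GFacts
import Vale.Agent.P308.Chern

/-!
The approximation scheme for the number of contingency tables: the algorithm and the rows.
-/

namespace Vale.Agent.P328C

open Finset hiding val
open Vale.Agent.P328 Vale.Agent.Lib.PTM Vale.Agent.Lib.PolyTime

/-- The number of coins of one sample. -/
def cs (D : Dat) (s : ℕ) : ℕ := 16 * (s + 1) * tcoins D.m D.n D.N (gsteps D.m D.n s)

/-- One sample. -/
def smp (D : Dat) (s : ℕ) (ρ : List Bool) : List (List ℕ) := D.output s (ρ.take (cs D s))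

/-- The threshold: a largest row sum divided by the number of columns, rounded up. -/
def thr (D : Dat) : ℕ := (D.r D.i0 + D.n - 1) / D.n

/-- The number of the samples whose entry in the largest row and the column `j` is large. -/
def cnt (D : Dat) (s B K : ℕ) (ρ : List Bool) (j : ℕ) : ℕ :=
  sumR K fun a => if thr D ≤ ent (smp D s (blk B a ρ)) D.i0 j then 1 else 0

/-- A column with the largest count. -/
def best (D : Dat) (s B K : ℕ) (ρ : List Bool) : ℕ := amax ((List.range D.n).map (cnt D s B K ρ))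

/-- Subtract `k` from the entry `i`. -/
def sub (l : List ℕ) (i k : ℕ) : List ℕ :=
  (List.range l.length).map fun a => if a = i then l.getD a 0 - k else l.getD a 0

/-- One stage: smaller margins, and the product of the counts. -/
def stage (s B K : ℕ) (x : Dat × ℕ) (ρ : List Bool) : Dat × ℕ :=
  ((sub x.1.1 x.1.i0 (thr x.1), sub x.1.2 (best x.1 s B K ρ) (thr x.1)),
    x.2 * cnt x.1 s B K ρ (best x.1 s B K ρ))

/-- The accuracy of the samples. -/
def sP (u : ℕ) : ℕ := 5 * u + 4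

/-- The number of samples of a stage. -/
def kP (u : ℕ) : ℕ := 256 * u ^ 10 * (5 * u + 1)

/-- All the stages. -/
def run (D : Dat) (u : ℕ) (ρ : List Bool) : Dat × ℕ :=
  runL (kP u * cs D (sP u)) (fun _ : ℕ => stage (sP u) (cs D (sP u)) (kP u)) (List.range (u ^ 3))
    (D, 1) ρ

/-- The estimate, rounded. -/
def alg (D : Dat) (u : ℕ) (ρ : List Bool) : ℕ :=
  (2 * kP u ^ u ^ 3 + (run D u ρ).2) / (2 * (run D u ρ).2)

/-- The number of coins. -/
def coins (D : Dat) (u : ℕ) : ℕ := u ^ 3 * (kP u * cs D (sP u))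

/-- Self-reduction. -/
def SELF : Prop := ∀ (m n : ℕ) (r : Fin m → ℕ) (c : Fin n → ℕ) (i : Fin m) (j : Fin n) (k : ℕ),
  k ≤ r i → k ≤ c j → (tables (Function.update r i (r i - k)) (Function.update c j (c j - k))).card =
    ((tables r c).filter fun X => k ≤ X i j).card

/-- Zero margins. -/
def ZERO : Prop := ∀ (m n : ℕ) (r : Fin m → ℕ) (c : Fin n → ℕ), ∑ i, r i = 0 → ∑ j, c j = 0 →
  (tables r c).card = 1

/-- The lists after a stage. -/
def SUB : Prop := ∀ (m : ℕ) (r : Fin m → ℕ) (i : Fin m) (k : ℕ),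
  sub (List.ofFn r) i k = List.ofFn (Function.update r i (r i - k))

/-- Rounding. -/
def RND : Prop := ∀ (u Z P Q : ℕ), 0 < u → 0 < P → (1 - 1 / (4 * u) : ℝ) * (P * Z) ≤ Q →
  (1 - 1 / (4 * u) : ℝ) * Q ≤ P * Z → |(((2 * Q + P) / (2 * P) : ℕ) : ℝ) - Z| ≤ Z / u

/-- The total is zero after enough stages. -/
def END : Prop := ∀ (q N N' u : ℕ), 0 < q → q ≤ u ^ 2 → N.size ≤ u →
  (N' : ℝ) ≤ N * (1 - 1 / q) ^ u ^ 3 → N' = 0

/-- The numbers of the union bound. -/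
def NUM : Prop := ∀ u n : ℕ, 0 < u → n ≤ u →
  (u : ℝ) ^ 3 * (n * (2 * Real.exp (-(kP u * (1 / (8 * (u : ℝ) ^ 5)) ^ 2 / 4)))) ≤ (1 / 2) ^ u ∧
    2 * (1 / 2 : ℝ) ^ sP u ≤ 1 / (8 * (u : ℝ) ^ 5) ∧
    1 - 1 / (4 * u : ℝ) ≤ (1 - 1 / (4 * (u : ℝ) ^ 4)) ^ u ^ 3

/-- Polynomial time. -/
def POLY : Prop := ∀ (α : Type) [Enc α] (D : α → Dat) (u : α → ℕ) (ρ : α → List Bool),
  PT ∅ D → PT ∅ u → (PT ∅ fun a => coins (D a) (u a)) ∧
    (PBd u → PBd fun a => coins (D a) (u a)) ∧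
    (PBd u → PT ∅ ρ → PT ∅ fun a => alg (D a) (u a) (ρ a))

/-- The law of the estimate. -/
def LAW : Prop := ∀ (m n : ℕ) (r : Fin m → ℕ) (c : Fin n → ℕ) (u : ℕ), 1 ≤ m → 1 ≤ n →
  ∑ i, r i = ∑ j, c j → m ≤ u → n ≤ u → (∑ i, r i).size ≤ u →
    1 - (1 / 2 : ℝ) ^ u ≤ frq (coins (List.ofFn r, List.ofFn c) u) fun ρ =>
      |(alg (List.ofFn r, List.ofFn c) u ρ : ℝ) - (tables r c).card| ≤ (tables r c).card / u

/-- The statement to be proved. -/
def Fpras : Prop := ∃ (M : Machine) (d : ℕ), ∀ (m n : ℕ) (r : Fin m → ℕ) (c : Fin n → ℕ),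
  1 ≤ m → 1 ≤ n → ∑ i, r i = ∑ j, c j → ∀ ε δ : ℚ, 0 < ε → ε < 1 → 0 < δ → δ < 1 →
    ∀ (L : ℝ) (T : ℕ), L = m + n + ∑ i, Real.logb 2 (r i + 2) + ∑ j, Real.logb 2 (c j + 2) →
      (L + 1 / (ε : ℝ) + Real.logb 2 (1 / (δ : ℝ)) + Real.logb 2 (ε.num * δ.num)) ^ d ≤ T →
      ∀ out : (Fin T → Bool) → M.Cfg,
        (∀ ρ, out ρ = M.run (pair (vec r) (pair (vec c) (pair (rat ε) (rat δ)))) (List.ofFn ρ)) →
        (∀ ρ, (out ρ).l = none) ∧
        (1 - δ : ℝ) ≤ (Nat.card {ρ // ∃ a : ℕ, (out ρ).stk 0 = a.bits ∧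
          (1 - ε : ℝ) * (tables r c).card ≤ a ∧ (a : ℝ) ≤ (1 + ε) * (tables r c).card} : ℝ) / 2 ^ T

/-- The bridge to the machine. -/
def BRI : Prop := POLY → LAW → Fpras

end Vale.Agent.P328C
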